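import Vale.Agent.P273SA.Rows
import Vale.Agent.P273SA.Chn
import Vale.Agent.P223.X.FundE

/-!
# P273S, row PER: the periods of the cycles of a partition of unity
-/

noncomputable section

namespace Vale.Agent.P273SV

open Set Filter Topology Vale.Agent.P223.H Vale.Agent.P223.X Vale.Agent.P223.X.Fund
  Vale.Agent.P273SA

theorem fs {V : Type} [AddCommMonoid V] {k : ℕ} {κ : Type} [Fintype κ]
    (G : (Fin (k + 1) → U1 × κ) → V) :
    ∑ᶠ l ∈ {l : Fin (k + 1) → U1 × κ | (l 0).1 = 1}, G l =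
      ∑ l : Fin (k + 1) → κ, G fun j => (1, l j) := by
  have h : {l : Fin (k + 1) → U1 × κ | (l 0).1 = 1} = univ :=
    eq_univ_of_forall fun l => Subsingleton.elim _ _
  let e : (Fin (k + 1) → κ) ≃ (Fin (k + 1) → U1 × κ) :=
    ⟨fun l j => (1, l j), fun l j => (l j).2, fun _ => rfl,
      fun l => funext fun j => Prod.ext (Subsingleton.elim _ _) rfl⟩
  rw [h, finsum_mem_univ, ← finsum_comp_equiv e, finsum_eq_sum_of_fintype]
  rfl

variable {n : ℕ} {N I : Type} [TopologicalSpace N] (C : Cov n N N U1 I)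

theorem ev_cy [Fintype I] (χ : I → E n → ℝ) {κ : Type} [Fintype κ] (D : κ → I × E n)
    (P : PUX C κ) (f : Simp (n + 1) N → ℝ) : ev f (cy C χ D P) =
      ∑ l : Fin (n + 1) → κ, P.wt χ (fun j => (1, l j)) * f (sg C D n fun j => (1, l j)) := by
  rw [cy, fs, map_sum]
  simp only [ev_single]

/-- Lebesgue number in the charts -/
theorem leb [Finite I] {O : N → Set N} (hO : ∀ x, O x ∈ 𝓝 x) : ∃ δ : ℝ, 0 < δ ∧
    ∀ i (q : E n), ‖q‖ ≤ 3 → ∃ x, ∀ u, ‖u - q‖ < δ → C.ψ i u ∈ O x := by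
  have h1 : ∀ i, ∀ᶠ δ in 𝓝[>] (0 : ℝ), ∀ q : E n, ‖q‖ ≤ 3 →
      ∃ x, ∀ u, ‖u - q‖ < δ → C.ψ i u ∈ O x := fun i => by
    obtain ⟨δ, hδ, h⟩ := lebesgue_number_lemma_of_metric (isCompact_closedBall (0 : E n) 3)
      (c := fun x => C.ψ i ⁻¹' interior (O x))
      (fun x => isOpen_interior.preimage (C.emb i).continuous)
      fun q _ => mem_iUnion.2 ⟨C.ψ i q, mem_interior_iff_mem_nhds.2 (hO _)⟩
    filter_upwards [nhdsWithin_le_nhds (Iio_mem_nhds hδ)] with d hd q hq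
    obtain ⟨x, hx⟩ := h q (mem_closedBall_zero_iff.2 hq)
    exact ⟨x, fun u hu => interior_subset (hx (mem_ball_iff_norm.2 (hu.trans hd)))⟩
  obtain ⟨δ, h2, h3⟩ := ((eventually_all.2 h1).and self_mem_nhdsWithin).exists
  exact ⟨δ, h3, h2⟩

theorem adp_mono {κ : Type} [Fintype κ] {D : κ → I × E n} {P : PUX C κ} {ε ε' : ℝ}
    (h : Adp C D P ε) (hε : ε ≤ ε') : Adp C D P ε' := fun i => ⟨(h i).1, fun x hx => by
  obtain ⟨y, h1, h2⟩ := (h i).2 x hx
  exact ⟨y, h1.trans hε, h2⟩⟩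

theorem per : PER := by
  intro n N I _ _ _ _ C χ hn hπ hχ
  obtain ⟨ε₂, hε₂, g2⟩ := small C (n + 1) 1 one_pos
  refine ⟨ε₂, hε₂, fun κ₀ _ D₀ P₀ hP₀ ι _ g hg hg1 c b H O hO hc h1 h2 => ?_⟩
  obtain ⟨δ, hδ, hL⟩ := leb C hO
  obtain ⟨η, hη, hun⟩ := unif C 4 hδ
  obtain ⟨ε₁, hε₁, g1⟩ := small C n δ hδ
  obtain ⟨ε, hε, e1, e2, e3, e4⟩ : ∃ ε : ℝ, 0 < ε ∧ ε ≤ ε₁ ∧ ε ≤ ε₂ ∧ ε < η ∧ ε ≤ 1 :=
    ⟨min (min ε₁ ε₂) (min (η / 2) 1), by positivity, (min_le_left _ _).trans (min_le_left _ _),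
      (min_le_left _ _).trans (min_le_right _ _),
      ((min_le_right _ _).trans (min_le_left _ _)).trans_lt (half_lt_self hη),
      (min_le_right _ _).trans (min_le_right _ _)⟩
  obtain ⟨κ, _, P, D, hP, -⟩ := FundC.main n N N U1 I C χ hn hχ ε hε
  obtain ⟨b', hb'⟩ := hom_cy C FundE.formHom FundE.wts hn hχ hP₀ (adp_mono C hP e2)
    fun l hl => (g2 l hl).1
  have hz : bd n (cy C χ D P) = 0 := bd_cy C Form.mainA FundE.wts hn hχ (adp_mono C hP e1)
    fun l hl => (g1 l hl).1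
  let q : κ → N := fun j => C.ψ (D j).1 (D j).2
  -- the value on the small cycle
  have s1 : ev c (cy C χ D₀ P₀) = ∑ l : Fin (n + 1) → κ,
      P.wt χ (fun j => (1, l j)) * H fun j => Sum.inl (q (l j)) := by
    have a1 : ev (cob b) (cy C χ D P) = 0 := by rw [← ev_bd, hz, map_zero]
    rw [sub_eq_iff_eq_add.1 hb', map_add, ev_bd_zero hc, zero_add, ← sub_zero (ev c _), ← a1,
      ev_cy, ev_cy, ← Finset.sum_sub_distrib]
    refine Finset.sum_congr rfl fun l _ => ?_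
    rw [← mul_sub]
    by_cases hl : P.wt χ (fun j => (1, l j)) = 0
    · rw [hl, zero_mul, zero_mul]
    obtain ⟨x, hx⟩ := (FundE.wts n N N U1 I C χ hn hχ κ P).2.2 _ hl
    obtain ⟨hG, hF⟩ := g1 _ ((hP.sm hx).mono e1)
    obtain ⟨x', hx'⟩ := hL (D (l 0)).1 (D (l 0)).2 (hP _).1
    have a2 : ∀ t, sg C D n (fun j => (1, l j)) t = SX C n (lab D fun j => (1, l j)) t :=
      fun t => by rw [sg, hπ]; rfl
    rw [h1 _ x' fun t => ?_, add_sub_cancel_right]
    · congr 2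
      funext j
      exact congrArg Sum.inl ((a2 _).trans (SX_vertex C hG j))
    · obtain ⟨u, hu, hu'⟩ := hF t t.2
      rw [a2, SX_apply C hG]
      exact (hu' : F C n _ (⇑t) = _) ▸ hx' u hu
  -- the prism
  let Q : PUX C ι := ⟨g, hg, fun i => HasCompactSupport.of_compactSpace _, fun x => by
    simp only [finsum_unique]
    exact hg1 x⟩
  obtain ⟨W, -, -, hW3, hW4⟩ := FundE.formHom n N N U1 I C χ hn hχ κ ι P Q
  have s2 := hW4 (fun l => H fun j => Sum.map q id (l j).2) fun _ _ => rfl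
  rw [fs, fs, finsum_mem_eq_zero_of_forall_eq_zero, sub_eq_zero] at s2
  · rw [s1]
    refine Eq.trans s2 (Finset.sum_congr rfl fun l _ => ?_)
    exact mul_comm _ _
  intro l _
  by_cases hl : W l = 0
  · rw [hl, zero_mul]
  obtain ⟨x, hx⟩ := hW3 l hl
  obtain ⟨γ, i, y, hy, hxy⟩ := C.cover x
  have hy1 : ‖y‖ ≤ 1 := (pi_norm_le_iff_of_nonneg zero_le_one).2 fun k => (hy k).le
  obtain ⟨x', hx'⟩ := hL i y (by linarith)
  have hxO : x ∈ O x' := hxy ▸ hx' y (by simpa using hδ)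
  have := h2 x' (fun j => Sum.map q id (l j).2) (fun k z hk => ?_) fun k j hk => ?_
  · exact mul_eq_zero_of_right _ this
  · rcases hk' : (l k).2 with j | j
    · simp only [hk', Sum.map_inl, Sum.inl.injEq] at hk
      obtain ⟨u, hu, hu'⟩ := hP.near (a := ((l k).1, j)) ((hx k).1 j hk')
      have hu2 : ‖u - (D j).2‖ ≤ ε := hu
      have hu4 : ‖u‖ ≤ 4 := by
        have a1 := norm_sub_norm_le u (D j).2
        have a2 := (hP j).1
        linarith
      obtain ⟨v, hv, hv'⟩ := hun (D j).1 i 1 u y hu4 (by linarith) (hu'.trans hxy.symm) (D j).2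
        (by rw [norm_sub_rev]; exact hu2.trans_lt e3)
      have a3 : q j = C.ψ i v := hv'
      rw [← hk, a3]
      exact hx' v hv
    · simp [hk'] at hk
  · rcases hk' : (l k).2 with j' | j'
    · simp [hk'] at hk
    · simp only [hk', Sum.map_inr, id, Sum.inr.injEq] at hk
      exact ⟨x, hk ▸ (hx k).2 j' hk', hxO⟩

end Vale.Agent.P273SV

end
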