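import Vale.Agent.P273SA.Chn
import Mathlib.Analysis.Calculus.InverseFunctionTheorem.ContDiff
import Mathlib.Analysis.Calculus.BumpFunction.FiniteDimension
import Mathlib.Analysis.SpecialFunctions.ImproperIntegrals
import Mathlib.MeasureTheory.Constructions.Pi

/-!
# P273S, row FUND: bounded parametrisations, real coordinates of `ℂ^m`
-/

noncomputable section

namespace Vale.Agent.P273SV

open Set Filter Topology MeasureTheory Vale.Agent.P223.H Vale.Agent.P273SA
open scoped ContDiff

theorem exists_th : ∃ (θ : ℝ → ℝ) (R : ℝ), 0 < R ∧ ContDiff ℝ ∞ θ ∧ (∀ s, 0 < deriv θ s) ∧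
    (∀ s, |s| ≤ 3 → θ s = s) ∧ ∀ s, |θ s| < R := by
  let b : ContDiffBump (0 : ℝ) := ⟨3, 4, by norm_num, by norm_num⟩
  let ρ : ℝ → ℝ := fun s => b s + (1 - b s) * (1 + s ^ 2)⁻¹
  have hq : ∀ s : ℝ, 0 < 1 + s ^ 2 := fun s => by positivity
  have hρ : ContDiff ℝ ∞ ρ := b.contDiff.add ((contDiff_const.sub b.contDiff).mul
    ((contDiff_const.add (contDiff_id.pow 2)).inv fun s => (hq s).ne'))
  have h0 : ∀ s, 0 < ρ s := fun s => by
    have h1 := b.nonneg (x := s)
    have h2 := b.le_one (x := s)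
    have h3 := inv_pos.2 (hq s)
    have h4 : (1 + s ^ 2)⁻¹ ≤ 1 := inv_le_one_of_one_le₀ (by nlinarith [sq_nonneg s])
    change 0 < b s + (1 - b s) * (1 + s ^ 2)⁻¹
    nlinarith [mul_nonneg h1 (sub_nonneg.2 h4)]
  have hi : Integrable ρ := by
    refine ((b.continuous.integrable_of_hasCompactSupport b.hasCompactSupport).add
      integrable_inv_one_add_sq).mono' hρ.continuous.aestronglyMeasurable
      (Eventually.of_forall fun s => ?_)
    rw [Real.norm_of_nonneg (h0 s).le]
    have h1 := b.nonneg (x := s)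
    have h3 := inv_pos.2 (hq s)
    change b s + (1 - b s) * (1 + s ^ 2)⁻¹ ≤ b s + (1 + s ^ 2)⁻¹
    nlinarith [mul_nonneg h1 h3.le]
  have hd : ∀ s, HasDerivAt (fun u => ∫ x in (0 : ℝ)..u, ρ x) (ρ s) s := fun s =>
    (hρ.continuous.integral_hasStrictDerivAt 0 s).hasDerivAt
  have hd' : deriv (fun u => ∫ x in (0 : ℝ)..u, ρ x) = ρ := funext fun s => (hd s).deriv
  have hn : 0 ≤ ∫ x, ‖ρ x‖ := integral_nonneg fun _ => norm_nonneg _
  refine ⟨fun u => ∫ x in (0 : ℝ)..u, ρ x, (∫ x, ‖ρ x‖) + 1, by linarith, ?_, ?_, ?_, ?_⟩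
  · rw [contDiff_infty_iff_deriv, hd']
    exact ⟨fun s => (hd s).differentiableAt, hρ⟩
  · rw [hd']
    exact h0
  · intro s hs
    have : ∫ x in (0 : ℝ)..s, ρ x = ∫ x in (0 : ℝ)..s, (1 : ℝ) := by
      refine intervalIntegral.integral_congr fun x hx => ?_
      have h1 : b x = 1 := by
        refine b.one_of_mem_closedBall ?_
        rw [mem_closedBall_zero_iff, Real.norm_eq_abs, abs_le]
        rw [abs_le] at hs
        rcases mem_uIcc.1 hx with h | h <;> constructor <;> change _ ≤ (_ : ℝ) <;>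
          simp only [b] <;> linarith [h.1, h.2, hs.1, hs.2]
      change b x + (1 - b x) * (1 + x ^ 2)⁻¹ = 1
      rw [h1]
      ring
    simp only [this]
    simp
  · intro s
    have h1 := intervalIntegral.norm_integral_le_integral_norm_uIoc (f := ρ) (a := 0) (b := s)
      (μ := volume)
    have h2 : ∫ x in uIoc 0 s, ‖ρ x‖ ≤ ∫ x, ‖ρ x‖ :=
      setIntegral_le_integral hi.norm (Eventually.of_forall fun _ => norm_nonneg _)
    rw [Real.norm_eq_abs] at h1
    linarith

variable {n : ℕ}

/-- Good parametrisations of open subsets of `ℝ^n`. -/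
structure Par (Θ : E n → E n) : Prop where
  sm : ContDiff ℝ ∞ Θ
  inj : Function.Injective Θ
  det : ∀ y, 0 < (fderiv ℝ Θ y).det

theorem Par.equiv {Θ : E n → E n} (h : Par Θ) (y : E n) :
    ∃ L : E n ≃L[ℝ] E n, HasFDerivAt Θ (L : E n →L[ℝ] E n) y :=
  ⟨(fderiv ℝ Θ y).toContinuousLinearEquivOfDetNeZero (h.det y).ne', by
    rw [ContinuousLinearMap.coe_toContinuousLinearEquivOfDetNeZero]
    exact (h.sm.differentiable (by simp) y).hasFDerivAt⟩

theorem Par.emb {Θ : E n → E n} (h : Par Θ) : IsOpenEmbedding Θ := by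
  refine IsOpenEmbedding.of_continuous_injective_isOpenMap h.sm.continuous h.inj
    (isOpenMap_iff_nhds_le.2 fun y => ?_)
  obtain ⟨L, hL⟩ := h.equiv y
  exact (h.sm.contDiffAt.hasStrictFDerivAt' hL (by simp)).map_nhds_eq_of_equiv.ge

theorem Par.inv {Θ : E n → E n} (h : Par Θ) (y : E n) :
    ContDiffAt ℝ ∞ (Function.invFun Θ) (Θ y) := by
  obtain ⟨L, hL⟩ := h.equiv y
  have h1 := h.sm.contDiffAt.to_localInverse hL (by simp)
  refine h1.congr_of_eventuallyEq ?_
  exact (h.sm.contDiffAt.hasStrictFDerivAt' hL (by simp)).localInverse_unique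
    (Eventually.of_forall (Function.leftInverse_invFun h.inj))

theorem exists_par (w : E n) {r : ℝ} (hr : 0 < r) : ∃ (Θ : E n → E n) (δ : ℝ), 0 < δ ∧ Par Θ ∧
    (∀ y, ‖y‖ ≤ 3 → Θ y = w + δ • y) ∧ ∀ y, Θ y ∈ Metric.ball w r := by
  obtain ⟨θ, R, hR, h1, h2, h3, h4⟩ := exists_th
  have hδ : 0 < r / R := div_pos hr hR
  have hd : ∀ y : E n, HasFDerivAt (fun (y : E n) k => w k + r / R * θ (y k))
      (ContinuousLinearMap.pi fun k => (r / R * deriv θ (y k)) •
        (ContinuousLinearMap.proj (R := ℝ) (φ := fun _ : Fin n => ℝ) k)) y := fun y => by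
    refine hasFDerivAt_pi.2 fun k => ?_
    have h5 : HasFDerivAt (fun y : E n => y k)
        (ContinuousLinearMap.proj (R := ℝ) (φ := fun _ : Fin n => ℝ) k) y :=
      (ContinuousLinearMap.proj (R := ℝ) (φ := fun _ : Fin n => ℝ) k).hasFDerivAt
    have h6 := (((h1.differentiable (by simp) (y k)).hasDerivAt).const_mul (r / R)).const_add (w k)
    have h7 := h6.comp_hasFDerivAt y h5
    exact h7
  refine ⟨fun y k => w k + r / R * θ (y k), r / R, hδ, ⟨?_, ?_, fun y => ?_⟩, ?_, ?_⟩
  · exact contDiff_pi.2 fun k => contDiff_const.add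
      (contDiff_const.mul (h1.comp (contDiff_apply ℝ ℝ k)))
  · intro y y' h
    funext k
    exact (strictMono_of_deriv_pos h2).injective
      (mul_left_cancel₀ hδ.ne' (add_left_cancel (congrFun h k)))
  · rw [(hd y).fderiv]
    have e : ((ContinuousLinearMap.pi fun k => (r / R * deriv θ (y k)) •
        (ContinuousLinearMap.proj (R := ℝ) (φ := fun _ : Fin n => ℝ) k) : E n →L[ℝ] E n) :
          E n →ₗ[ℝ] E n) = Matrix.toLin' (Matrix.diagonal fun k => r / R * deriv θ (y k)) := by
      refine LinearMap.ext fun v => ?_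
      rw [Matrix.toLin'_apply]
      funext k
      rw [Matrix.mulVec_diagonal]
      rfl
    rw [ContinuousLinearMap.det, e, LinearMap.det_toLin', Matrix.det_diagonal]
    exact Finset.prod_pos fun k _ => mul_pos hδ (h2 _)
  · intro y hy
    funext k
    change w k + r / R * θ (y k) = w k + r / R * y k
    rw [h3 _ ((norm_le_pi_norm y k).trans hy)]
  · intro y
    rw [Metric.mem_ball, dist_pi_lt_iff hr]
    intro k
    rw [Real.dist_eq, add_sub_cancel_left, abs_mul, abs_of_pos hδ]
    calc r / R * |θ (y k)| < r / R * R := mul_lt_mul_of_pos_left (h4 _) hδ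
      _ = r := div_mul_cancel₀ _ hR.ne'

variable {m : ℕ}

/-- real and imaginary parts -/
def unk (m : ℕ) (z : Cm m) : E (m * 2) := fun a =>
  if (finProdFinEquiv.symm a).2 = 0 then (z (finProdFinEquiv.symm a).1).re
  else (z (finProdFinEquiv.symm a).1).im

theorem unk_zero (z : Cm m) (j : Fin m) : unk m z (finProdFinEquiv (j, 0)) = (z j).re := by
  simp [unk]

theorem unk_one (z : Cm m) (j : Fin m) : unk m z (finProdFinEquiv (j, 1)) = (z j).im := by
  simp [unk]

theorem idx_cases {p : Fin (m * 2) → Prop} (h0 : ∀ j, p (finProdFinEquiv (j, 0)))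
    (h1 : ∀ j, p (finProdFinEquiv (j, 1))) (a : Fin (m * 2)) : p a := by
  obtain ⟨⟨j, k⟩, rfl⟩ := finProdFinEquiv.surjective a
  revert k
  rw [Fin.forall_fin_two]
  exact ⟨h0 j, h1 j⟩

/-- `kap` as a linear isomorphism -/
def kL (m : ℕ) : E (m * 2) ≃L[ℝ] Cm m := LinearEquiv.toContinuousLinearEquiv
  { toFun := kap m
    invFun := unk m
    map_add' := fun x y => funext fun j => by
      simp only [kap, Pi.add_apply, Complex.ofReal_add]
      ring
    map_smul' := fun r x => funext fun j => by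
      simp only [kap, Pi.smul_apply, smul_eq_mul, Complex.ofReal_mul, RingHom.id_apply,
        Complex.real_smul]
      ring
    left_inv := fun y => funext (idx_cases (fun j => by rw [unk_zero]; simp [kap])
      fun j => by rw [unk_one]; simp [kap])
    right_inv := fun z => funext fun j => by
      rw [kap, unk_zero, unk_one, Complex.re_add_im] }

theorem kL_apply (y : E (m * 2)) : kL m y = kap m y := rfl

theorem kL_symm (z : Cm m) : (kL m).symm z = unk m z := rfl

theorem kL_single (a : Fin (m * 2)) : kL m (Pi.single a 1) = bas m a := by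
  rw [← ContinuousLinearEquiv.eq_symm_apply, kL_symm]
  revert a
  refine idx_cases (fun j => ?_) fun j => ?_
  · have h1 : (finProdFinEquiv (j, (0 : Fin 2))).divNat = j :=
      congrArg Prod.fst (finProdFinEquiv.symm_apply_apply (j, (0 : Fin 2)))
    have h2 : (finProdFinEquiv (j, (0 : Fin 2))).modNat = 0 :=
      congrArg Prod.snd (finProdFinEquiv.symm_apply_apply (j, (0 : Fin 2)))
    rw [bas, h1, h2, if_pos rfl]
    refine funext (idx_cases (fun k => ?_) fun k => ?_)
    · rw [unk_zero]
      by_cases h : k = j <;> simp [h]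
    · rw [unk_one]
      by_cases h : k = j <;> simp [h]
  · have h1 : (finProdFinEquiv (j, (1 : Fin 2))).divNat = j :=
      congrArg Prod.fst (finProdFinEquiv.symm_apply_apply (j, (1 : Fin 2)))
    have h2 : (finProdFinEquiv (j, (1 : Fin 2))).modNat = 1 :=
      congrArg Prod.snd (finProdFinEquiv.symm_apply_apply (j, (1 : Fin 2)))
    rw [bas, h1, h2, if_neg (by decide)]
    refine funext (idx_cases (fun k => ?_) fun k => ?_)
    · rw [unk_zero]
      by_cases h : k = j <;> simp [h]
    · rw [unk_one]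
      by_cases h : k = j <;> simp [h]

theorem mp_unk : MeasurePreserving (kL m).symm volume volume := by
  have hmeas : Measurable (kL m).symm := (kL m).symm.continuous.measurable
  refine ⟨hmeas, ?_⟩
  rw [show (volume : Measure (E (m * 2))) = Measure.pi fun _ => volume from rfl]
  refine Eq.symm (Measure.pi_eq fun s hs => ?_)
  rw [Measure.map_apply hmeas (MeasurableSet.univ_pi hs)]
  have hpre : (kL m).symm ⁻¹' (univ.pi s) = univ.pi fun j : Fin m =>
      Complex.measurableEquivRealProd ⁻¹'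
        (s (finProdFinEquiv (j, 0)) ×ˢ s (finProdFinEquiv (j, 1))) := by
    ext z
    simp only [mem_preimage, Set.mem_pi, mem_univ, true_implies, mem_prod, kL_symm]
    constructor
    · intro h j
      have h1 := h (finProdFinEquiv (j, 0))
      have h2 := h (finProdFinEquiv (j, 1))
      rw [unk_zero] at h1
      rw [unk_one] at h2
      exact ⟨h1, h2⟩
    · intro h
      refine idx_cases (fun j => ?_) fun j => ?_
      · rw [unk_zero]; exact (h j).1
      · rw [unk_one]; exact (h j).2
  rw [hpre, show (volume : Measure (Cm m)) = Measure.pi fun _ => volume from rfl, Measure.pi_pi,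
    ← finProdFinEquiv.prod_comp, Fintype.prod_prod_type]
  refine Finset.prod_congr rfl fun j _ => ?_
  rw [Complex.volume_preserving_equiv_real_prod.measure_preimage
    ((hs _).prod (hs _)).nullMeasurableSet, Fin.prod_univ_two]
  exact Measure.prod_prod _ _

/-- the chain rule for determinants -/
theorem det_mul_of {f g : E n → E n} {y : E n} (hf : DifferentiableAt ℝ f y)
    (hg : DifferentiableAt ℝ g (f y)) :
    (fderiv ℝ (fun y => g (f y)) y).det = (fderiv ℝ g (f y)).det * (fderiv ℝ f y).det := by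
  have h : HasFDerivAt (fun y => g (f y)) _ y := hg.hasFDerivAt.comp y hf.hasFDerivAt
  rw [h.fderiv]
  exact LinearMap.det_comp (fderiv ℝ g (f y) : E n →ₗ[ℝ] E n) (fderiv ℝ f y : E n →ₗ[ℝ] E n)

end Vale.Agent.P273SV

end
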